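import Mathlib

/-!
# P167, general `q`, route (C): sets which cross the boundary circle in one sector

`K` a connected compact set in the closed unit disc which meets the circle in one point `w` only, `U` an
open neighbourhood of `K`: there is a compact connected set `A`, `K ⊆ interior A`, `A ⊆ U`, which is a closed
sector in a collar of the circle (`exists_sec`). `sec` : the same for the domain of a homeomorphism `Φ` of
the plane.
-/

set_option autoImplicit false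

namespace Vale.Agent.P167.H290

open Set Metric Topology Filter

/-- The closed sector. -/
def Sct (σ c₁ c₂ r₁ r₂ : ℝ) : Set ℂ :=
  {z | r₁ ≤ ‖z‖ ∧ ‖z‖ ≤ r₂ ∧ 0 < σ * z.im ∧ c₁ * ‖z‖ ≤ z.re ∧ z.re ≤ c₂ * ‖z‖}

/-- Polar coordinates. -/
noncomputable def pol (σ : ℝ) (u : ℝ × ℝ) : ℂ := ⟨u.1 * u.2, u.1 * (σ * √(1 - u.2 ^ 2))⟩

variable {σ c₁ c₂ r₁ r₂ : ℝ}

theorem continuous_pol : Continuous (pol σ) := by
  have h : pol σ = fun u : ℝ × ℝ => ((u.1 * u.2 : ℝ) : ℂ) +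
      ((u.1 * (σ * √(1 - u.2 ^ 2)) : ℝ) : ℂ) * Complex.I := by
    funext u
    apply Complex.ext <;> simp [pol]
  rw [h]
  fun_prop

theorem sq_one (hσ : σ = 1 ∨ σ = -1) : σ * σ = 1 := by
  rcases hσ with rfl | rfl <;> norm_num

theorem norm_pol (hσ : σ = 1 ∨ σ = -1) {u : ℝ × ℝ} (h0 : 0 ≤ u.1) (h1 : -1 ≤ u.2) (h2 : u.2 ≤ 1) :
    ‖pol σ u‖ = u.1 := by
  have hs := sq_one hσ
  have h3 : 0 ≤ 1 - u.2 ^ 2 := by nlinarith
  have h4 : √(1 - u.2 ^ 2) * √(1 - u.2 ^ 2) = 1 - u.2 ^ 2 := Real.mul_self_sqrt h3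
  have h5 : ‖pol σ u‖ ^ 2 = u.1 ^ 2 := by
    rw [← Complex.normSq_eq_norm_sq, Complex.normSq_apply]
    simp only [pol]
    calc u.1 * u.2 * (u.1 * u.2) + u.1 * (σ * √(1 - u.2 ^ 2)) * (u.1 * (σ * √(1 - u.2 ^ 2)))
        = u.1 ^ 2 * (u.2 ^ 2 + (σ * σ) * (√(1 - u.2 ^ 2) * √(1 - u.2 ^ 2))) := by ring
      _ = u.1 ^ 2 := by rw [hs, h4]; ring
  exact (pow_left_inj₀ (norm_nonneg _) h0 two_ne_zero).1 h5

/-- Every point of the right sign is in the image of polar coordinates. -/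
theorem pol_eq (hσ : σ = 1 ∨ σ = -1) {z : ℂ} (h : 0 < σ * z.im) :
    pol σ (‖z‖, z.re / ‖z‖) = z := by
  have hz : z ≠ 0 := by
    rintro rfl
    simp at h
  have hn : 0 < ‖z‖ := norm_pos_iff.2 hz
  have hs := sq_one hσ
  have h1 : ‖z‖ ^ 2 = z.re ^ 2 + z.im ^ 2 := by
    rw [← Complex.normSq_eq_norm_sq, Complex.normSq_apply]
    ring
  have h2 : ‖z‖ * √(1 - (z.re / ‖z‖) ^ 2) = σ * z.im := by
    have e1 : 1 - (z.re / ‖z‖) ^ 2 = (σ * z.im / ‖z‖) ^ 2 := by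
      rw [div_pow, div_pow, mul_pow, show σ ^ 2 = 1 by rw [pow_two]; exact hs]
      field_simp
      rw [h1]
      ring
    rw [e1, Real.sqrt_sq (by positivity)]
    field_simp
  apply Complex.ext
  · show ‖z‖ * (z.re / ‖z‖) = z.re
    field_simp
  · show ‖z‖ * (σ * √(1 - (z.re / ‖z‖) ^ 2)) = z.im
    calc ‖z‖ * (σ * √(1 - (z.re / ‖z‖) ^ 2)) = σ * (‖z‖ * √(1 - (z.re / ‖z‖) ^ 2)) := by ring
      _ = (σ * σ) * z.im := by rw [h2]; ring
      _ = z.im := by rw [hs, one_mul]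

theorem sct_eq_image (hσ : σ = 1 ∨ σ = -1) (hr : 0 < r₁) (h1 : -1 < c₁) (h2 : c₂ < 1) :
    Sct σ c₁ c₂ r₁ r₂ = pol σ '' (Icc r₁ r₂ ×ˢ Icc c₁ c₂) := by
  have hs := sq_one hσ
  ext z
  constructor
  · rintro ⟨a1, a2, a3, a4, a5⟩
    have hn : 0 < ‖z‖ := hr.trans_le a1
    refine ⟨(‖z‖, z.re / ‖z‖), ⟨⟨a1, a2⟩, ?_, ?_⟩, pol_eq hσ a3⟩
    · exact (le_div_iff₀ hn).2 a4
    · exact (div_le_iff₀ hn).2 a5
  · rintro ⟨⟨r, x⟩, ⟨⟨a1, a2⟩, a3, a4⟩, rfl⟩
    dsimp only at a1 a2 a3 a4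
    have hr0 : 0 < r := hr.trans_le a1
    have hx1 : -1 < x := h1.trans_le a3
    have hx2 : x < 1 := a4.trans_lt h2
    have hn : ‖pol σ (r, x)‖ = r := norm_pol hσ hr0.le hx1.le hx2.le
    have hsq : 0 < √(1 - x ^ 2) := Real.sqrt_pos.2 (by nlinarith)
    refine ⟨by rw [hn]; exact a1, by rw [hn]; exact a2, ?_, ?_, ?_⟩
    · show 0 < σ * (r * (σ * √(1 - x ^ 2)))
      calc (0 : ℝ) < r * √(1 - x ^ 2) := by positivity
        _ = σ * (r * (σ * √(1 - x ^ 2))) := by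
          rw [show σ * (r * (σ * √(1 - x ^ 2))) = (σ * σ) * (r * √(1 - x ^ 2)) by ring, hs, one_mul]
    · rw [hn]
      show c₁ * r ≤ r * x
      rw [mul_comm]
      exact mul_le_mul_of_nonneg_left a3 hr0.le
    · rw [hn]
      show r * x ≤ c₂ * r
      rw [mul_comm c₂]
      exact mul_le_mul_of_nonneg_left a4 hr0.le

theorem isCompact_sct (hσ : σ = 1 ∨ σ = -1) (hr : 0 < r₁) (h1 : -1 < c₁) (h2 : c₂ < 1) :
    IsCompact (Sct σ c₁ c₂ r₁ r₂) := by
  rw [sct_eq_image hσ hr h1 h2]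
  exact (isCompact_Icc.prod isCompact_Icc).image continuous_pol

theorem isPreconnected_sct (hσ : σ = 1 ∨ σ = -1) (hr : 0 < r₁) (h1 : -1 < c₁) (h2 : c₂ < 1) :
    IsPreconnected (Sct σ c₁ c₂ r₁ r₂) := by
  rw [sct_eq_image hσ hr h1 h2]
  exact (isPreconnected_Icc.prod isPreconnected_Icc).image _ continuous_pol.continuousOn

/-- **A set which crosses the circle in one sector.** -/
theorem exists_sec (hσ : σ = 1 ∨ σ = -1) {K U : Set ℂ} {w : ℂ} (hK : IsCompact K)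
    (hKc : IsPreconnected K) (hwK : w ∈ K) (hw : ‖w‖ = 1) (hwi : 0 < σ * w.im)
    (hin : ∀ z ∈ K, z ≠ w → ‖z‖ < 1) (hU : IsOpen U) (hKU : K ⊆ U) :
    ∃ ρ : ℝ, 0 < ρ ∧ ρ < 1 ∧ ∃ (A : Set ℂ) (c₁ c₂ : ℝ), -1 < c₁ ∧ c₁ < c₂ ∧ c₂ < 1 ∧ IsCompact A ∧
      IsConnected A ∧ K ⊆ interior A ∧ A ⊆ U ∧ ∀ z : ℂ, |‖z‖ - 1| ≤ ρ →
        (z ∈ A ↔ 0 < σ * z.im ∧ c₁ * ‖z‖ ≤ z.re ∧ z.re ≤ c₂ * ‖z‖) := by
  have hs := sq_one hσ
  have hre : w.re ^ 2 < 1 := by
    have h1 : ‖w‖ ^ 2 = w.re ^ 2 + w.im ^ 2 := by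
      rw [← Complex.normSq_eq_norm_sq, Complex.normSq_apply]
      ring
    rw [hw] at h1
    have h2 : w.im ≠ 0 := by
      intro h
      rw [h, mul_zero] at hwi
      exact lt_irrefl _ hwi
    have : 0 < w.im ^ 2 := by positivity
    linarith
  have hre1 : -1 < w.re ∧ w.re < 1 := by
    constructor <;> nlinarith
  -- a small sector is in `U`
  have hF : pol σ (1, w.re) = w := by
    have := pol_eq hσ hwi
    rwa [hw, div_one] at this
  have hn1 : pol σ ⁻¹' U ∈ 𝓝 ((1, w.re) : ℝ × ℝ) := by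
    refine continuous_pol.continuousAt.preimage_mem_nhds ?_
    rw [hF]
    exact hU.mem_nhds (hKU hwK)
  obtain ⟨δ, hδ, hball⟩ := Metric.mem_nhds_iff.1 hn1
  obtain ⟨ε, hε, hεδ, hε1, hε2, hε3⟩ : ∃ ε : ℝ, 0 < ε ∧ ε < δ ∧ ε < 1 - w.re ∧ ε < w.re + 1 ∧ ε < 1 := by
    refine ⟨min (min (δ / 2) ((1 - w.re) / 2)) (min ((w.re + 1) / 2) (1 / 2)), ?_, ?_, ?_, ?_, ?_⟩
    · have := hre1.1; have := hre1.2
      refine lt_min (lt_min ?_ ?_) (lt_min ?_ ?_) <;> linarith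
    · exact ((min_le_left _ _).trans (min_le_left _ _)).trans_lt (by linarith)
    · exact ((min_le_left _ _).trans (min_le_right _ _)).trans_lt (by linarith [hre1.2])
    · exact ((min_le_right _ _).trans (min_le_left _ _)).trans_lt (by linarith [hre1.1])
    · exact ((min_le_right _ _).trans (min_le_right _ _)).trans_lt (by norm_num)
  -- the set `K` near the circle
  let O : Set ℂ := {z | 0 < σ * z.im ∧ (w.re - ε) * ‖z‖ < z.re ∧ z.re < (w.re + ε) * ‖z‖}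
  have hO : IsOpen O := by
    refine (isOpen_lt continuous_const (continuous_const.mul Complex.continuous_im)).inter
      ((isOpen_lt (continuous_const.mul continuous_norm) Complex.continuous_re).inter
        (isOpen_lt Complex.continuous_re (continuous_const.mul continuous_norm)))
  have hwO : w ∈ O := ⟨hwi, by rw [hw]; linarith, by rw [hw]; linarith⟩
  obtain ⟨ρ₁, hρ0, hρε, hρ1, hKO⟩ : ∃ ρ₁ : ℝ, 0 < ρ₁ ∧ ρ₁ ≤ ε ∧ ρ₁ < 1 ∧
      ∀ z ∈ K, 1 - ρ₁ < ‖z‖ → z ∈ O := by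
    rcases (K \ O).eq_empty_or_nonempty with he | hne
    · refine ⟨ε, hε, le_rfl, hε3, fun z hz _ => ?_⟩
      by_contra h
      have : z ∈ K \ O := ⟨hz, h⟩
      rw [he] at this
      exact this
    · obtain ⟨z₀, hz₀, hmax⟩ := (hK.diff hO).exists_isMaxOn hne continuous_norm.continuousOn
      have h1 : ‖z₀‖ < 1 := hin z₀ hz₀.1 (fun h => hz₀.2 (h ▸ hwO))
      refine ⟨min ε (1 - ‖z₀‖), lt_min hε (by linarith), min_le_left _ _,
        (min_le_left _ _).trans_lt hε3, fun z hz hlt => ?_⟩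
      by_contra h
      have h2 := hmax (⟨hz, h⟩ : z ∈ K \ O)
      have h3 : min ε (1 - ‖z₀‖) ≤ 1 - ‖z₀‖ := min_le_right _ _
      have h4 : ‖z‖ ≤ ‖z₀‖ := h2
      linarith
  -- the inner part
  set T : Set ℂ := K ∩ closedBall 0 (1 - 3 * ρ₁ / 4) with hT
  have hTc : IsCompact T := hK.inter_right isClosed_closedBall
  obtain ⟨δ₂, hδ₂, hδ₂U⟩ := hTc.exists_cthickening_subset_open hU (inter_subset_left.trans hKU)
  set δ' : ℝ := min δ₂ (ρ₁ / 8) with hδ'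
  have hδ'0 : 0 < δ' := lt_min hδ₂ (by linarith)
  have hδ'1 : δ' ≤ ρ₁ / 8 := min_le_right _ _
  have hcth : cthickening δ' T = ⋃ x ∈ T, closedBall x δ' :=
    hTc.cthickening_eq_biUnion_closedBall hδ'0.le
  have hc1 : -1 < w.re - ε := by linarith
  have hc2 : w.re + ε < 1 := by linarith
  have hr0 : 0 < 1 - ρ₁ := by linarith
  have hST : ∀ z ∈ K, z ∈ Sct σ (w.re - ε) (w.re + ε) (1 - ρ₁) (1 + ρ₁) ∨ z ∈ T := by
    intro z hz
    by_cases h : 1 - ρ₁ < ‖z‖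
    · left
      obtain ⟨a1, a2, a3⟩ := hKO z hz h
      have h1 : ‖z‖ ≤ 1 := by
        by_cases e : z = w
        · rw [e, hw]
        · exact (hin z hz e).le
      exact ⟨h.le, by linarith, a1, a2.le, a3.le⟩
    · right
      rw [not_lt] at h
      exact ⟨hz, mem_closedBall_zero_iff.2 (by linarith)⟩
  have hTsub : T ⊆ cthickening δ' T := self_subset_cthickening T
  refine ⟨ρ₁ / 2, by linarith, by linarith,
    Sct σ (w.re - ε) (w.re + ε) (1 - ρ₁) (1 + ρ₁) ∪ cthickening δ' T, w.re - ε, w.re + ε, hc1,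
    by linarith, hc2, ?_, ?_, ?_, ?_, ?_⟩
  · exact (isCompact_sct hσ hr0 hc1 hc2).union (isCompact_of_isClosed_isBounded
      isClosed_cthickening hTc.isBounded.cthickening)
  · -- connected
    refine ⟨⟨w, Or.inl ⟨by rw [hw]; linarith, by rw [hw]; linarith, hwi, by rw [hw]; linarith,
      by rw [hw]; linarith⟩⟩, ?_⟩
    have hwS : w ∈ Sct σ (w.re - ε) (w.re + ε) (1 - ρ₁) (1 + ρ₁) :=
      ⟨by rw [hw]; linarith, by rw [hw]; linarith, hwi, by rw [hw]; linarith, by rw [hw]; linarith⟩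
    have h1 : IsPreconnected (Sct σ (w.re - ε) (w.re + ε) (1 - ρ₁) (1 + ρ₁) ∪ K) :=
      (isPreconnected_sct hσ hr0 hc1 hc2).union w hwS hwK hKc
    have h2 : ∀ x ∈ T, IsPreconnected (K ∪ closedBall x δ') := fun x hx =>
      hKc.union x hx.1 (mem_closedBall_self hδ'0.le) (convex_closedBall x δ').isPreconnected
    have h3 : Sct σ (w.re - ε) (w.re + ε) (1 - ρ₁) (1 + ρ₁) ∪ cthickening δ' T =
        ⋃₀ ({Sct σ (w.re - ε) (w.re + ε) (1 - ρ₁) (1 + ρ₁) ∪ K} ∪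
          (fun x => K ∪ closedBall x δ') '' T) := by
      apply Subset.antisymm
      · rintro z (hz | hz)
        · exact ⟨_, Or.inl rfl, Or.inl hz⟩
        · rw [hcth, mem_iUnion₂] at hz
          obtain ⟨x, hx, hz⟩ := hz
          exact ⟨_, Or.inr ⟨x, hx, rfl⟩, Or.inr hz⟩
      · have hKs : K ⊆ Sct σ (w.re - ε) (w.re + ε) (1 - ρ₁) (1 + ρ₁) ∪ cthickening δ' T := by
          intro z hz
          rcases hST z hz with h | h
          · exact Or.inl h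
          · exact Or.inr (hTsub h)
        rintro z ⟨s, hs | ⟨x, hx, rfl⟩, hz⟩
        · rw [hs] at hz
          rcases hz with hz | hz
          · exact Or.inl hz
          · exact hKs hz
        · rcases hz with hz | hz
          · exact hKs hz
          · refine Or.inr ?_
            rw [hcth, mem_iUnion₂]
            exact ⟨x, hx, hz⟩
    rw [h3]
    refine isPreconnected_sUnion w _ ?_ ?_
    · rintro s (hs | ⟨x, hx, rfl⟩)
      · rw [hs]; exact Or.inr hwK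
      · exact Or.inl hwK
    · rintro s (hs | ⟨x, hx, rfl⟩)
      · rw [hs]; exact h1
      · exact h2 x hx
  · -- `K` is in the interior
    intro z hz
    rw [mem_interior_iff_mem_nhds]
    by_cases h : 1 - ρ₁ < ‖z‖
    · have h1 : ‖z‖ < 1 + ρ₁ := by
        by_cases e : z = w
        · rw [e, hw]; linarith
        · linarith [hin z hz e]
      have hop : IsOpen (O ∩ {z : ℂ | 1 - ρ₁ < ‖z‖} ∩ {z : ℂ | ‖z‖ < 1 + ρ₁}) :=
        (hO.inter (isOpen_lt continuous_const continuous_norm)).inter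
          (isOpen_lt continuous_norm continuous_const)
      refine Filter.mem_of_superset (hop.mem_nhds ⟨⟨hKO z hz h, h⟩, h1⟩) ?_
      rintro y ⟨⟨⟨a1, a2, a3⟩, a4⟩, a5⟩
      exact Or.inl ⟨le_of_lt a4, le_of_lt a5, a1, a2.le, a3.le⟩
    · have hzT : z ∈ T := ⟨hz, mem_closedBall_zero_iff.2 (by rw [not_lt] at h; linarith)⟩
      refine Filter.mem_of_superset (ball_mem_nhds z hδ'0) fun y hy => Or.inr ?_
      rw [hcth, mem_iUnion₂]
      exact ⟨z, hzT, ball_subset_closedBall hy⟩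
  · -- in `U`
    refine union_subset ?_ ((cthickening_mono (min_le_left _ _) T).trans hδ₂U)
    rw [sct_eq_image hσ hr0 hc1 hc2]
    rintro _ ⟨⟨r, x⟩, ⟨⟨a1, a2⟩, a3, a4⟩, rfl⟩
    dsimp only at a1 a2 a3 a4
    refine hball ?_
    rw [mem_ball, Prod.dist_eq, max_lt_iff]
    simp only [Real.dist_eq]
    constructor <;> rw [abs_lt] <;> constructor <;> linarith
  · -- the collar
    intro z hz
    rw [abs_le] at hz
    constructor
    · rintro (⟨-, -, a1, a2, a3⟩ | h)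
      · exact ⟨a1, a2, a3⟩
      · exfalso
        rw [hcth, mem_iUnion₂] at h
        obtain ⟨x, hx, hzx⟩ := h
        have h1 : ‖x‖ ≤ 1 - 3 * ρ₁ / 4 := mem_closedBall_zero_iff.1 hx.2
        have h2 : ‖z‖ ≤ ‖x‖ + δ' := by
          have h3 : ‖z‖ ≤ ‖x‖ + ‖z - x‖ := by
            have := norm_add_le x (z - x)
            rwa [add_sub_cancel] at this
          have h4 : ‖z - x‖ ≤ δ' := by
            rw [← dist_eq_norm]
            exact hzx
          linarith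
        linarith [hz.1]
    · rintro ⟨a1, a2, a3⟩
      exact Or.inl ⟨by linarith [hz.1], by linarith [hz.2], a1, a2, a3⟩

/-! ### The domain of a homeomorphism -/

/-- The coordinates as a homeomorphism of `ℂ`. -/
noncomputable def coH (Φ : (ℝ × ℝ) ≃ₜ (ℝ × ℝ)) : ℂ ≃ₜ ℂ :=
  (Complex.equivRealProdCLM.toHomeomorph.trans Φ.symm).trans
    Complex.equivRealProdCLM.toHomeomorph.symm

theorem coH_re (Φ : (ℝ × ℝ) ≃ₜ (ℝ × ℝ)) (z : ℂ) : (coH Φ z).re = (Φ.symm (z.re, z.im)).1 := rfl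

theorem coH_im (Φ : (ℝ × ℝ) ≃ₜ (ℝ × ℝ)) (z : ℂ) : (coH Φ z).im = (Φ.symm (z.re, z.im)).2 := rfl

theorem norm_coH (Φ : (ℝ × ℝ) ≃ₜ (ℝ × ℝ)) (z : ℂ) : ‖coH Φ z‖ =
    √((Φ.symm (z.re, z.im)).1 ^ 2 + (Φ.symm (z.re, z.im)).2 ^ 2) := by
  rw [Complex.norm_def, Complex.normSq_apply, coH_re, coH_im]
  congr 1
  ring

/-- **Sets which cross the boundary of the marked domain in one sector.** `K` connected, compact, in the
domain except for the boundary point with the parameter `t`. -/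
theorem sec (Φ : (ℝ × ℝ) ≃ₜ (ℝ × ℝ)) (hσ : σ = 1 ∨ σ = -1) {K U : Set ℂ} {t : ℝ}
    (hK : IsCompact K) (hKc : IsPreconnected K)
    (htK : (⟨(Φ (Real.cos t, Real.sin t)).1, (Φ (Real.cos t, Real.sin t)).2⟩ : ℂ) ∈ K)
    (ht : 0 < σ * Real.sin t)
    (hin : ∀ z ∈ K, z ≠ (⟨(Φ (Real.cos t, Real.sin t)).1, (Φ (Real.cos t, Real.sin t)).2⟩ : ℂ) →
      √((Φ.symm (z.re, z.im)).1 ^ 2 + (Φ.symm (z.re, z.im)).2 ^ 2) < 1)
    (hU : IsOpen U) (hKU : K ⊆ U) :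
    ∃ ρ : ℝ, 0 < ρ ∧ ρ < 1 ∧ ∃ (A : Set ℂ) (c₁ c₂ : ℝ), -1 < c₁ ∧ c₁ < c₂ ∧ c₂ < 1 ∧ IsCompact A ∧
      IsConnected A ∧ K ⊆ interior A ∧ A ⊆ U ∧ ∀ z : ℂ,
        |√((Φ.symm (z.re, z.im)).1 ^ 2 + (Φ.symm (z.re, z.im)).2 ^ 2) - 1| ≤ ρ →
        (z ∈ A ↔ 0 < σ * (Φ.symm (z.re, z.im)).2 ∧
          c₁ * √((Φ.symm (z.re, z.im)).1 ^ 2 + (Φ.symm (z.re, z.im)).2 ^ 2) ≤
            (Φ.symm (z.re, z.im)).1 ∧
          (Φ.symm (z.re, z.im)).1 ≤
            c₂ * √((Φ.symm (z.re, z.im)).1 ^ 2 + (Φ.symm (z.re, z.im)).2 ^ 2)) := by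
  set p : ℂ := ⟨(Φ (Real.cos t, Real.sin t)).1, (Φ (Real.cos t, Real.sin t)).2⟩ with hp
  have hp1 : coH Φ p = ⟨Real.cos t, Real.sin t⟩ := by
    have e : Φ.symm (p.re, p.im) = (Real.cos t, Real.sin t) := Φ.symm_apply_apply _
    apply Complex.ext
    · rw [coH_re, e]
    · rw [coH_im, e]
  obtain ⟨ρ, h1, h2, A, c₁, c₂, h3, h4, h5, h6, h7, h8, h9, h10⟩ :=
    exists_sec hσ (K := coH Φ '' K) (U := coH Φ '' U) (w := coH Φ p)
      (hK.image (coH Φ).continuous) (hKc.image _ (coH Φ).continuous.continuousOn)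
      (mem_image_of_mem _ htK)
      (by
        rw [hp1, Complex.norm_def, Complex.normSq_apply]
        rw [Real.sqrt_eq_one]
        nlinarith [Real.sin_sq_add_cos_sq t])
      (by rw [hp1]; exact ht)
      (by
        rintro _ ⟨z, hz, rfl⟩ hne
        rw [norm_coH]
        exact hin z hz fun h => hne (by rw [h]))
      ((coH Φ).isOpenMap U hU) (image_mono hKU)
  refine ⟨ρ, h1, h2, coH Φ ⁻¹' A, c₁, c₂, h3, h4, h5, ?_, ?_, ?_, ?_, fun z hz => ?_⟩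
  · rw [← (coH Φ).image_symm]
    exact h6.image (coH Φ).symm.continuous
  · rw [← (coH Φ).image_symm]
    exact h7.image _ (coH Φ).symm.continuous.continuousOn
  · intro z hz
    rw [← (coH Φ).preimage_interior]
    exact h8 (mem_image_of_mem _ hz)
  · intro z hz
    obtain ⟨y, hy, e⟩ := h9 hz
    rwa [(coH Φ).injective e] at hy
  · rw [← norm_coH] at hz ⊢
    exact h10 (coH Φ z) hz

end Vale.Agent.P167.H290
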